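import Vale.Agent.Lib.P050.Final

/-!
# Local form of Sidorenko's conjecture with a maximum degree bound

If `H` is a bipartite graph of maximum degree at most `Δ` and `W` is a symmetric measurable kernel
on `[0,1]` with `∫ W = 1` and `‖W - 1‖_∞ ≤ 1 / (100 Δ)`, then `t(H, W) ≥ 1`.  The number of edges
of `H` does not enter.
-/

open MeasureTheory

namespace Vale.Agent.Results.P050.A_local

open Vale.Agent.Lib.P050

/-- **Local Sidorenko inequality with degree bound.**  For every finite bipartite simple graph `H`
with all degrees at most `Δ`, and every measurable symmetric `W : [0,1]² → ℝ` with `∫∫ W = 1` and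
`|W - 1| ≤ 1 / (100 Δ)` almost everywhere, the homomorphism density satisfies `t(H, W) ≥ 1`. -/
theorem result {V : Type*} [Fintype V] [DecidableEq V] (H : SimpleGraph V) [DecidableRel H.Adj]
    (hbip : H.Colorable 2) (Δ : ℕ) (hΔ : 1 ≤ Δ) (hdeg : ∀ v, H.degree v ≤ Δ)
    (W : unitInterval → unitInterval → ℝ) (hWm : Measurable (Function.uncurry W))
    (hWs : ∀ a b, W a b = W b a)
    (hW1 : ∫ p, W p.1 p.2 ∂((volume : Measure unitInterval).prod volume) = 1)
    (hWε : ∀ᵐ p ∂((volume : Measure unitInterval).prod volume),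
      |W p.1 p.2 - 1| ≤ 1 / (100 * (Δ : ℝ))) :
    1 ≤ homDensity H W hWs :=
  local_sidorenko_prob volume H hbip hΔ hdeg W hWm hWs hW1 hWε

end Vale.Agent.Results.P050.A_local
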